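import Vale.Agent.P237.Petty.Cor.Low20.Chunks
import Vale.Agent.P237.Petty.Cor.Low20.L1.Data

/-!
# P237: kernel checks of boxes 22 to 22
-/

namespace Vale.Agent.P237.Petty.Cor.Low20.L1

def check22_0 : cutAll dat.Z1
    ((boxAll dat box22).take 19)
  [.leaf, .leaf, .leaf, .leaf, .leaf, .leaf, .leaf, .leaf, .leaf, .leaf, .leaf, (.split 0 (.split 2
    (.split 1 (.split 0 (.split 2 .leaf (.split 1 (.split 0 .leaf (.split 2 .leaf .leaf)) .leaf))
    (.split 2 .leaf (.split 1 (.split 0 (.split 2 .leaf (.split 1 .leaf .leaf)) .leaf) .leaf)))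
    .leaf) (.split 1 (.split 0 (.split 2 (.split 1 .leaf .leaf) .leaf) (.split 2 (.split 1 (.split 0
    .leaf .leaf) .leaf) .leaf)) .leaf)) (.split 2 (.split 1 (.split 0 (.split 2 .leaf .leaf) (.split
    2 .leaf .leaf)) .leaf) .leaf)), .leaf, .leaf, .leaf, .leaf, .leaf, .leaf, .leaf] = true := by
  decide +kernel

def check22_1 : cutAll dat.Z1
    (((boxAll dat box22).drop 19).take 5)
  [(.split 0 (.split 2 .leaf (.split 2 .leaf (.split 1 (.split 0 .leaf .leaf) .leaf))) .leaf),
    (.split 0 (.split 2 (.split 1 (.split 0 (.split 2 .leaf (.split 1 (.split 0 .leaf (.split 2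
    .leaf .leaf)) .leaf)) (.split 2 .leaf (.split 1 (.split 0 (.split 2 .leaf (.split 1 (.split 0
    (.split 2 .leaf .leaf) .leaf) .leaf)) .leaf) .leaf))) .leaf) (.split 1 (.split 0 (.split 2
    (.split 1 .leaf .leaf) .leaf) (.split 2 (.split 1 (.split 0 (.split 2 (.split 1 .leaf .leaf)
    .leaf) .leaf) .leaf) .leaf)) .leaf)) (.split 2 (.split 1 (.split 0 (.split 2 .leaf (.split 1
    (.split 0 .leaf (.split 2 .leaf .leaf)) .leaf)) (.split 2 .leaf (.split 1 (.split 0 (.split 2
    .leaf .leaf) .leaf) .leaf))) .leaf) .leaf)), .leaf, .leaf, .leaf] = true := by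
  decide +kernel

def check22_2 : cutAll dat.Z1
    (((boxAll dat box22).drop 19).drop 5)
  [.leaf, .leaf, .leaf, .leaf, (.split 2 .leaf (.split 2 .leaf (.split 0 (.split 2 .leaf (.split 2
    .leaf (.split 0 .leaf .leaf))) .leaf))), .leaf, .leaf, .leaf, .leaf, .leaf, .leaf, .leaf, .leaf,
    .leaf] = true := by
  decide +kernel

theorem sound22 : BoxSound dat box22 ∧ TopSound dat box22 :=
  bound_of_boxAll
    (cutAll_of_take 19 check22_0
      (cutAll_of_take 5 check22_1
      check22_2))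

end Vale.Agent.P237.Petty.Cor.Low20.L1
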