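import Vale.Agent.P237.Petty.Cor.Low20.L1.Check11a
import Vale.Agent.P237.Petty.Cor.Low20.L1.Check11b

/-!
# P237: kernel checks of boxes 23 to 23
-/

namespace Vale.Agent.P237.Petty.Cor.Low20.L1

theorem sound23 : BoxSound dat box23 ∧ TopSound dat box23 :=
  bound_of_boxAll
    (cutAll_of_take 12 check23_0
      (cutAll_of_take 5 check23_1
      (cutAll_of_take 3 check23_2
      (cutAll_of_take 1 check23_3
      (cutAll_of_take 5 check23_4
      check23_5)))))

end Vale.Agent.P237.Petty.Cor.Low20.L1
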