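import Vale.Agent.P237.Petty.Cor.Low20.Chunks
import Vale.Agent.P237.Petty.Cor.Low20.L1.Data

/-!
# P237: kernel checks of boxes 23 to 23
-/

namespace Vale.Agent.P237.Petty.Cor.Low20.L1

def check23_0 : cutAll dat.Z1
    ((boxAll dat box23).take 12)
  [.leaf, .leaf, .leaf, .leaf, .leaf, .leaf, .leaf, .leaf, .leaf, .leaf, .leaf, (.split 0 (.split 2
    (.split 1 (.split 0 (.split 2 .leaf .leaf) (.split 2 .leaf (.split 1 (.split 0 (.split 2 .leaf
    (.split 1 (.split 0 .leaf (.split 2 .leaf .leaf)) .leaf)) (.split 2 .leaf (.split 1 (.split 0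
    (.split 2 .leaf .leaf) .leaf) .leaf))) .leaf))) .leaf) (.split 1 (.split 0 .leaf (.split 2
    (.split 1 (.split 0 .leaf .leaf) .leaf) .leaf)) .leaf)) (.split 2 (.split 1 (.split 0 (.split 2
    .leaf (.split 1 (.split 0 (.split 2 .leaf .leaf) (.split 2 .leaf .leaf)) .leaf)) .leaf) .leaf)
    .leaf))] = true := by
  decide +kernel

def check23_1 : cutAll dat.Z1
    (((boxAll dat box23).drop 12).take 5)
  [(.split 2 (.split 2 (.split 0 .leaf .leaf) (.split 0 .leaf .leaf)) (.split 2 (.split 0 .leaf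
    .leaf) (.split 0 .leaf .leaf))), (.split 2 (.split 2 (.split 0 .leaf .leaf) (.split 0 .leaf
    .leaf)) (.split 2 (.split 0 .leaf .leaf) (.split 0 .leaf .leaf))), (.split 2 (.split 2 (.split 0
    .leaf .leaf) (.split 0 .leaf .leaf)) (.split 2 (.split 0 .leaf .leaf) (.split 0 .leaf .leaf))),
    (.split 2 (.split 2 (.split 0 .leaf .leaf) (.split 0 .leaf .leaf)) (.split 2 (.split 0 .leaf
    .leaf) (.split 0 .leaf .leaf))), (.split 2 (.split 2 (.split 0 .leaf .leaf) (.split 0 .leaf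
    .leaf)) (.split 2 (.split 0 .leaf .leaf) (.split 0 .leaf .leaf)))] = true := by
  decide +kernel

def check23_2 : cutAll dat.Z1
    ((((boxAll dat box23).drop 12).drop 5).take 3)
  [(.split 2 (.split 2 (.split 0 .leaf .leaf) (.split 0 .leaf .leaf)) (.split 2 (.split 0 .leaf
    .leaf) (.split 0 .leaf .leaf))), (.split 2 (.split 2 (.split 0 .leaf .leaf) (.split 0 .leaf
    .leaf)) (.split 2 (.split 0 .leaf .leaf) (.split 0 .leaf .leaf))), (.split 0 (.split 2 .leaf
    (.split 1 (.split 0 .leaf (.split 2 .leaf (.split 1 (.split 0 .leaf (.split 2 .leaf (.split 1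
    (.split 0 .leaf .leaf) .leaf))) .leaf))) .leaf)) (.split 2 .leaf (.split 1 (.split 0 .leaf
    .leaf) .leaf)))] = true := by
  decide +kernel

def check23_3 : cutAll dat.Z1
    (((((boxAll dat box23).drop 12).drop 5).drop 3).take 1)
  [(.split 0 (.split 2 (.split 1 (.split 0 (.split 2 .leaf .leaf) (.split 2 .leaf (.split 1 (.split
    0 (.split 2 (.split 1 .leaf .leaf) (.split 1 (.split 0 .leaf (.split 2 (.split 1 .leaf (.split 0
    .leaf (.split 2 .leaf .leaf))) (.split 1 .leaf .leaf))) .leaf)) (.split 2 (.split 1 .leaf .leaf)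
    (.split 1 (.split 0 (.split 2 (.split 1 .leaf (.split 0 (.split 2 .leaf (.split 1 .leaf .leaf))
    .leaf)) (.split 1 .leaf (.split 0 (.split 2 (.split 1 .leaf .leaf) .leaf) .leaf))) .leaf)
    .leaf))) .leaf))) .leaf) (.split 1 (.split 0 .leaf (.split 2 (.split 1 (.split 0 .leaf (.split 2
    (.split 1 .leaf .leaf) .leaf)) .leaf) .leaf)) .leaf)) (.split 2 (.split 1 (.split 0 (.split 2
    .leaf (.split 1 (.split 0 (.split 2 .leaf .leaf) (.split 2 .leaf .leaf)) .leaf)) .leaf) .leaf)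
    .leaf))] = true := by
  decide +kernel

end Vale.Agent.P237.Petty.Cor.Low20.L1
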