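import Vale.Agent.P237.Petty.Cor.Low20.Chunks
import Vale.Agent.P237.Petty.Cor.Low20.L1.Data

/-!
# P237: kernel checks of boxes 24 to 24
-/

namespace Vale.Agent.P237.Petty.Cor.Low20.L1

def check24_0 : cutAll dat.Z1
    ((boxAll dat box24).take 14)
  [.leaf, .leaf, .leaf, .leaf, .leaf, .leaf, .leaf, .leaf, .leaf, .leaf, .leaf, (.split 2 (.split 0
    (.split 2 .leaf .leaf) (.split 2 .leaf (.split 0 (.split 2 (.split 0 .leaf .leaf) (.split 0
    .leaf .leaf)) .leaf))) (.split 0 .leaf (.split 2 (.split 0 .leaf .leaf) .leaf))), (.split 2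
    (.split 2 (.split 0 .leaf .leaf) (.split 0 .leaf .leaf)) (.split 2 (.split 0 .leaf .leaf)
    (.split 0 .leaf .leaf))), (.split 2 (.split 2 (.split 0 .leaf .leaf) (.split 0 .leaf .leaf))
    (.split 2 (.split 0 .leaf .leaf) (.split 0 .leaf .leaf)))] = true := by
  decide +kernel

def check24_1 : cutAll dat.Z1
    (((boxAll dat box24).drop 14).take 5)
  [(.split 2 (.split 2 (.split 0 .leaf .leaf) (.split 0 .leaf .leaf)) (.split 2 (.split 0 .leaf
    .leaf) (.split 0 .leaf .leaf))), (.split 2 (.split 2 (.split 0 .leaf .leaf) (.split 0 .leaf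
    .leaf)) (.split 2 (.split 0 .leaf .leaf) (.split 0 .leaf .leaf))), (.split 2 (.split 2 (.split 0
    .leaf .leaf) (.split 0 .leaf .leaf)) (.split 2 (.split 0 .leaf .leaf) (.split 0 .leaf .leaf))),
    (.split 2 (.split 2 (.split 0 .leaf .leaf) (.split 0 .leaf .leaf)) (.split 2 (.split 0 .leaf
    .leaf) (.split 0 .leaf .leaf))), (.split 2 (.split 2 (.split 0 .leaf .leaf) (.split 0 .leaf
    .leaf)) (.split 2 (.split 0 .leaf .leaf) (.split 0 .leaf .leaf)))] = true := by
  decide +kernel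

def check24_2 : cutAll dat.Z1
    ((((boxAll dat box24).drop 14).drop 5).take 5)
  [(.split 0 .leaf (.split 2 .leaf (.split 2 .leaf (.split 1 (.split 0 .leaf .leaf) .leaf)))),
    (.split 2 (.split 0 (.split 2 .leaf .leaf) (.split 2 .leaf (.split 0 (.split 2 (.split 0 .leaf
    .leaf) (.split 0 (.split 2 (.split 0 .leaf .leaf) .leaf) .leaf)) .leaf))) (.split 0 .leaf
    (.split 2 (.split 0 .leaf .leaf) .leaf))), (.split 2 (.split 2 (.split 0 .leaf .leaf) (.split 0
    .leaf .leaf)) (.split 2 (.split 0 .leaf .leaf) (.split 0 .leaf .leaf))), (.split 2 (.split 2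
    (.split 0 .leaf .leaf) (.split 0 .leaf .leaf)) (.split 2 (.split 0 .leaf .leaf) (.split 0 .leaf
    .leaf))), (.split 2 (.split 2 (.split 0 .leaf .leaf) (.split 0 .leaf .leaf)) (.split 2 (.split 0
    .leaf .leaf) (.split 0 .leaf .leaf)))] = true := by
  decide +kernel

def check24_3 : cutAll dat.Z1
    (((((boxAll dat box24).drop 14).drop 5).drop 5).take 11)
  [(.split 2 (.split 2 (.split 0 .leaf .leaf) (.split 0 .leaf .leaf)) (.split 2 (.split 0 .leaf
    .leaf) (.split 0 .leaf .leaf))), (.split 2 (.split 2 (.split 0 .leaf .leaf) (.split 0 .leaf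
    .leaf)) (.split 2 (.split 0 .leaf .leaf) (.split 0 .leaf .leaf))), (.split 2 (.split 2 (.split 0
    .leaf .leaf) (.split 0 .leaf .leaf)) (.split 2 (.split 0 .leaf .leaf) (.split 0 .leaf .leaf))),
    (.split 2 (.split 2 (.split 0 .leaf .leaf) (.split 0 .leaf .leaf)) (.split 2 (.split 0 .leaf
    .leaf) (.split 0 .leaf .leaf))), (.split 2 (.split 2 .leaf (.split 0 .leaf .leaf)) (.split 2
    (.split 0 .leaf .leaf) (.split 0 .leaf .leaf))), .leaf, .leaf, .leaf, .leaf, .leaf, .leaf] = true := by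
  decide +kernel

def check24_4 : cutAll dat.Z1
    (((((boxAll dat box24).drop 14).drop 5).drop 5).drop 11)
  [.leaf, .leaf, .leaf] = true := by
  decide +kernel

theorem sound24 : BoxSound dat box24 ∧ TopSound dat box24 :=
  bound_of_boxAll
    (cutAll_of_take 14 check24_0
      (cutAll_of_take 5 check24_1
      (cutAll_of_take 5 check24_2
      (cutAll_of_take 11 check24_3
      check24_4))))

end Vale.Agent.P237.Petty.Cor.Low20.L1
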