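import Vale.Agent.P237.Petty.Cor.Low20.Chunks
import Vale.Agent.P237.Petty.Cor.Low20.L1.Data

/-!
# P237: kernel checks of boxes 19 to 20
-/

namespace Vale.Agent.P237.Petty.Cor.Low20.L1

def check19_0 : cutAll dat.Z1
    ((boxAll dat box19).take 27)
  [.leaf, .leaf, .leaf, .leaf, .leaf, (.split 0 .leaf (.split 1 .leaf .leaf)), .leaf, .leaf, .leaf,
    .leaf, (.split 0 (.split 1 .leaf (.split 0 .leaf .leaf)) (.split 1 (.split 0 (.split 1 (.split 0
    .leaf .leaf) .leaf) .leaf) .leaf)), (.split 2 (.split 2 .leaf (.split 0 (.split 2 .leaf .leaf)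
    .leaf)) .leaf), .leaf, .leaf, .leaf, .leaf, .leaf, .leaf, .leaf, .leaf, (.split 2 (.split 2
    .leaf (.split 0 (.split 2 .leaf .leaf) (.split 2 .leaf .leaf))) .leaf), .leaf, .leaf, .leaf,
    .leaf, .leaf, .leaf] = true := by
  decide +kernel

def check19_1 : cutAll dat.Z1
    ((boxAll dat box19).drop 27)
  [.leaf, .leaf, .leaf, .leaf, (.split 0 .leaf (.split 1 .leaf .leaf)), .leaf, .leaf, .leaf, .leaf,
    .leaf, .leaf] = true := by
  decide +kernel

theorem sound19 : BoxSound dat box19 ∧ TopSound dat box19 :=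
  bound_of_boxAll
    (cutAll_of_take 27 check19_0
      check19_1)

def check20_0 : cutAll dat.Z1
    ((boxAll dat box20).take 18)
  [.leaf, .leaf, .leaf, .leaf, .leaf, (.split 0 .leaf (.split 1 .leaf .leaf)), .leaf, (.split 0
    .leaf (.split 1 .leaf .leaf)), .leaf, .leaf, (.split 0 (.split 1 (.split 0 (.split 1 (.split 0
    .leaf (.split 1 .leaf (.split 0 .leaf .leaf))) (.split 0 .leaf (.split 1 (.split 0 .leaf (.split
    1 (.split 0 .leaf .leaf) .leaf)) .leaf))) (.split 1 .leaf .leaf)) (.split 0 .leaf .leaf))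
    (.split 1 (.split 0 (.split 1 (.split 0 (.split 1 (.split 0 (.split 1 (.split 0 .leaf .leaf)
    .leaf) .leaf) .leaf) .leaf) .leaf) .leaf) .leaf)), (.split 2 .leaf .leaf), .leaf, .leaf, .leaf,
    .leaf, .leaf, .leaf] = true := by
  decide +kernel

def check20_1 : cutAll dat.Z1
    ((boxAll dat box20).drop 18)
  [.leaf, (.split 0 .leaf (.split 2 .leaf (.split 1 (.split 0 (.split 2 .leaf (.split 1 .leaf
    .leaf)) .leaf) .leaf))), (.split 2 .leaf .leaf), .leaf, .leaf, (.split 2 .leaf .leaf), .leaf,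
    .leaf, .leaf, .leaf, .leaf, .leaf, .leaf, (.split 0 .leaf .leaf), .leaf, .leaf, .leaf, .leaf,
    .leaf, .leaf] = true := by
  decide +kernel

theorem sound20 : BoxSound dat box20 ∧ TopSound dat box20 :=
  bound_of_boxAll
    (cutAll_of_take 18 check20_0
      check20_1)

end Vale.Agent.P237.Petty.Cor.Low20.L1
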