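import Vale.Agent.P237.Petty.Cor.Low20.Chunks
import Vale.Agent.P237.Petty.Cor.Low20.L1.Data

/-!
# P237: kernel checks of boxes 21 to 21
-/

namespace Vale.Agent.P237.Petty.Cor.Low20.L1

def check21_0 : cutAll dat.Z1
    ((boxAll dat box21).take 19)
  [.leaf, .leaf, .leaf, .leaf, .leaf, (.split 0 .leaf (.split 1 .leaf .leaf)), .leaf, .leaf, .leaf,
    .leaf, (.split 0 (.split 0 (.split 0 .leaf (.split 0 (.split 0 (.split 0 .leaf .leaf) .leaf)
    .leaf)) .leaf) .leaf), (.split 0 (.split 2 (.split 2 .leaf (.split 1 .leaf .leaf)) (.split 2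
    (.split 1 (.split 0 .leaf (.split 2 .leaf .leaf)) .leaf) .leaf)) (.split 2 (.split 2 .leaf
    (.split 1 .leaf .leaf)) (.split 2 (.split 1 (.split 0 (.split 2 .leaf .leaf) .leaf) .leaf)
    .leaf))), .leaf, .leaf, .leaf, .leaf, .leaf, .leaf, .leaf] = true := by
  decide +kernel

def check21_1 : cutAll dat.Z1
    (((boxAll dat box21).drop 19).take 4)
  [(.split 0 (.split 2 .leaf (.split 1 (.split 0 .leaf (.split 2 .leaf (.split 1 (.split 0 .leaf
    (.split 2 .leaf (.split 1 .leaf .leaf))) .leaf))) .leaf)) (.split 2 .leaf (.split 1 (.split 0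
    (.split 2 .leaf (.split 1 (.split 0 (.split 2 .leaf (.split 1 (.split 0 .leaf .leaf) .leaf))
    .leaf) .leaf)) .leaf) .leaf))), (.split 0 (.split 2 (.split 2 .leaf (.split 1 .leaf .leaf))
    (.split 2 (.split 1 (.split 0 .leaf (.split 2 (.split 2 (.split 1 (.split 0 .leaf (.split 2
    .leaf .leaf)) .leaf) .leaf) .leaf)) .leaf) .leaf)) (.split 2 (.split 2 .leaf (.split 1 .leaf
    .leaf)) (.split 2 (.split 1 (.split 0 (.split 2 (.split 2 (.split 1 (.split 0 (.split 2 .leaf
    .leaf) .leaf) .leaf) .leaf) .leaf) .leaf) .leaf) .leaf))), .leaf, .leaf] = true := by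
  decide +kernel

def check21_2 : cutAll dat.Z1
    (((boxAll dat box21).drop 19).drop 4)
  [.leaf, .leaf, .leaf, .leaf, .leaf, .leaf, .leaf, .leaf, (.split 0 .leaf .leaf), .leaf, .leaf,
    .leaf, .leaf, .leaf, .leaf] = true := by
  decide +kernel

theorem sound21 : BoxSound dat box21 ∧ TopSound dat box21 :=
  bound_of_boxAll
    (cutAll_of_take 19 check21_0
      (cutAll_of_take 4 check21_1
      check21_2))

end Vale.Agent.P237.Petty.Cor.Low20.L1
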