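import Vale.Agent.P237.Petty.Cor.Low20.L1.Data

/-!
# P237: kernel checks of the record
-/

namespace Vale.Agent.P237.Petty.Cor.Low20.L1

/-- The trees of the rationals below the ratio of the mass above. -/
def millsTrees : List CTree :=
  [(.split 0 (.split 0 (.split 1 (.split 0 .leaf .leaf) (.split 0 .leaf .leaf)) .leaf) .leaf),
    .leaf, (.split 0 (.split 0 (.split 0 .leaf (.split 0 .leaf .leaf)) .leaf) (.split 0 (.split 0
    .leaf .leaf) .leaf)), .leaf]

def checkMills : cutAll 0 (millsClaims dat) millsTrees = true := by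
  decide +kernel

def millsFull : millsTrees.all noOut = true := by
  decide +kernel

def checkFar : cutAll 1 (boxes.flatMap (farClaims dat))
  [.leaf, .leaf, .leaf, .leaf, .leaf, .leaf, .leaf, (.split 0 .leaf .leaf), .leaf, .leaf, .leaf,
    .leaf, .leaf, .leaf, .leaf, .leaf, .leaf, .leaf, .leaf, .leaf, .leaf, .leaf, .leaf, .leaf,
    .leaf, .leaf, .leaf, .leaf, .leaf, .leaf, .leaf, .leaf, .leaf, .leaf, .leaf, .leaf, .leaf,
    .leaf, .leaf, .leaf, .leaf, (.split 0 (.split 1 (.split 0 (.split 1 .leaf .leaf) (.split 1 .leaf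
    .leaf)) .leaf) .leaf), .leaf, (.split 0 (.split 1 (.split 0 (.split 1 (.split 0 .leaf .leaf)
    .leaf) .leaf) .leaf) .leaf), (.split 0 (.split 1 (.split 0 .leaf .leaf) .leaf) .leaf), .leaf,
    (.split 0 (.split 1 (.split 0 .leaf (.split 1 .leaf .leaf)) .leaf) .leaf), .leaf, (.split 0
    .leaf .leaf), .leaf, (.split 0 (.split 1 (.split 0 .leaf .leaf) .leaf) (.split 1 .leaf (.split 0
    .leaf .leaf))), .leaf, (.split 0 (.split 1 (.split 0 (.split 1 (.split 0 .leaf .leaf) .leaf)
    .leaf) .leaf) .leaf), .leaf, .leaf, .leaf, .leaf, .leaf] = true := by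
  decide +kernel

def shapeOk : okShape dat boxes 26 && okRecTop dat &&
    (boxes.take 26).all (okTop dat) = true := by
  decide +kernel

def atOk : (List.range 6).all (fun i => okAt dat boxes 26 (18 + i)) = true := by
  decide +kernel

end Vale.Agent.P237.Petty.Cor.Low20.L1
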